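import Vale.Agent.P040.Sph56.Defs

/-!
# The windmill on ordered pairs (chirotope form)

`v : Fin n → V3` vectors in general position.  A vertex of the arrangement of the planes `(v a)^⊥` is an
ordered pair `(p, q)`; `Cons p q r` says that the plane through `q` and `p`, turning about `q`, hits `r`
first.  Everything is expressed by signs of determinants.
-/

namespace Vale.Agent.P040.Wind75

open Finset Vale.Agent.P040.Sph56

variable {n : ℕ} (v : Fin n → V3)

/-- determinant of three of the vectors -/
def dd (a b c : Fin n) : ℝ := det3 (v a) (v b) (v c)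

/-- general position -/
def Gen : Prop := ∀ a b c : Fin n, a ≠ b → a ≠ c → b ≠ c → dd v a b c ≠ 0

lemma dd_cyc (a b c : Fin n) : dd v b c a = dd v a b c := by unfold dd det3; ring
lemma dd_swap12 (a b c : Fin n) : dd v b a c = - dd v a b c := by unfold dd det3; ring
lemma dd_swap13 (a b c : Fin n) : dd v c b a = - dd v a b c := by unfold dd det3; ring
lemma dd_swap23 (a b c : Fin n) : dd v a c b = - dd v a b c := by unfold dd det3; ring
lemma dd_self12 (a c : Fin n) : dd v a a c = 0 := by unfold dd det3; ring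
lemma dd_self23 (a b : Fin n) : dd v a b b = 0 := by unfold dd det3; ring
lemma dd_self13 (a b : Fin n) : dd v a b a = 0 := by unfold dd det3; ring

/-- turning about `q` from the plane through `p`, the vector `r` is hit first -/
def Cons (p q r : Fin n) : Prop :=
  r ≠ p ∧ r ≠ q ∧ ∀ z, z ≠ p → z ≠ q → z ≠ r → dd v p q z * dd v q r z * dd v p q r < 0

/-- numerator of the cotangent -/
def cnum (p q r : V3) : ℝ := dot p r * dot q q - dot p q * dot q r

lemma key_identity (p q r z : V3) :
    cnum p q r * det3 p q z - cnum p q z * det3 p q r = - dot (crs p q) (crs p q) * det3 q r z := by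
  unfold cnum dot det3 crs; ring

lemma det3_eq_dot_crs (p q r : V3) : dot (crs p q) r = det3 p q r := by
  unfold dot det3 crs; ring

lemma crs_pos {p q r : V3} (h : det3 p q r ≠ 0) : 0 < dot (crs p q) (crs p q) := by
  set c := crs p q with hc
  have hnn : 0 ≤ dot c c := by
    unfold dot; nlinarith [mul_self_nonneg c.1, mul_self_nonneg c.2.1, mul_self_nonneg c.2.2]
  rcases hnn.lt_or_eq with h1 | h1
  · exact h1
  · exfalso
    apply h
    unfold dot at h1
    have e1 : c.1 = 0 := by nlinarith [mul_self_nonneg c.1, mul_self_nonneg c.2.1, mul_self_nonneg c.2.2]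
    have e2 : c.2.1 = 0 := by nlinarith [mul_self_nonneg c.1, mul_self_nonneg c.2.1, mul_self_nonneg c.2.2]
    have e3 : c.2.2 = 0 := by nlinarith [mul_self_nonneg c.1, mul_self_nonneg c.2.1, mul_self_nonneg c.2.2]
    rw [← det3_eq_dot_crs, ← hc]
    unfold dot
    rw [e1, e2, e3]; ring

theorem exists_cons (hg : Gen v) {p q : Fin n} (hpq : p ≠ q) (h3 : ∃ r, r ≠ p ∧ r ≠ q) :
    ∃ r, Cons v p q r := by
  classical
  set S := univ.filter fun r : Fin n => r ≠ p ∧ r ≠ q with hS
  have hSne : S.Nonempty := by
    obtain ⟨r, hr⟩ := h3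
    exact ⟨r, by simp [hS, hr]⟩
  obtain ⟨r, hrS, hmax⟩ := S.exists_max_image (fun r => cnum (v p) (v q) (v r) / dd v p q r) hSne
  have hr : r ≠ p ∧ r ≠ q := by simpa [hS] using hrS
  refine ⟨r, hr.1, hr.2, fun z hzp hzq hzr => ?_⟩
  have hz := hmax z (by simp [hS, hzp, hzq])
  have hdr : dd v p q r ≠ 0 := hg p q r hpq hr.1.symm hr.2.symm
  have hdz : dd v p q z ≠ 0 := hg p q z hpq hzp.symm hzq.symm
  have hqrz : dd v q r z ≠ 0 := hg q r z hr.2.symm hzq.symm hzr.symm
  have hK : 0 < dot (crs (v p) (v q)) (crs (v p) (v q)) := crs_pos (r := v r) hdr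
  have hid : cnum (v p) (v q) (v r) * dd v p q z - cnum (v p) (v q) (v z) * dd v p q r
      = - dot (crs (v p) (v q)) (crs (v p) (v q)) * dd v q r z := key_identity _ _ _ _
  set K := dot (crs (v p) (v q)) (crs (v p) (v q)) with hKdef
  set dr := dd v p q r with hdr'
  set dz := dd v p q z with hdz'
  set e := dd v q r z with he'
  set Nr := cnum (v p) (v q) (v r)
  set Nz := cnum (v p) (v q) (v z)
  have h1 : 0 ≤ Nr / dr - Nz / dz := sub_nonneg.2 hz
  have h2 : Nr / dr - Nz / dz = (Nr * dz - Nz * dr) / (dr * dz) := by field_simp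
  rw [h2, hid] at h1
  have h4 : 0 ≤ (-K * e) * (dr * dz) := by
    have h5 := mul_nonneg h1 (mul_self_nonneg (dr * dz))
    have e1 : (-K * e) / (dr * dz) * ((dr * dz) * (dr * dz)) = (-K * e) * (dr * dz) := by
      field_simp
    linarith
  have h6 : dz * e * dr ≤ 0 := by
    by_contra hc
    push Not at hc
    nlinarith [mul_pos hK hc]
  exact lt_of_le_of_ne h6 (mul_ne_zero (mul_ne_zero hdz hqrz) hdr)

theorem cons_unique {p q r r' : Fin n} (h : Cons v p q r) (h' : Cons v p q r') : r = r' := by
  by_contra hne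
  have h1 := h.2.2 r' h'.1 h'.2.1 (Ne.symm hne)
  have h2 := h'.2.2 r h.1 h.2.1 hne
  rw [dd_swap23 v q r r'] at h2
  nlinarith

theorem cons_unique_left {p p' q r : Fin n} (hp : p ≠ q) (hp' : p' ≠ q)
    (h : Cons v p q r) (h' : Cons v p' q r) : p = p' := by
  by_contra hne
  have h1 := h.2.2 p' (Ne.symm hne) hp' h'.1.symm
  have h2 := h'.2.2 p hne hp h.1.symm
  rw [dd_swap13 v p q p', dd_cyc v p q r] at h2
  rw [dd_cyc v p' q r] at h1
  nlinarith

open Classical in
/-- the next vector -/
noncomputable def nx (p q : Fin n) : Fin n := if h : ∃ r, Cons v p q r then h.choose else p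

lemma exists_third (hn : 3 ≤ n) (p q : Fin n) : ∃ r, r ≠ p ∧ r ≠ q := by
  classical
  have h : ({p, q} : Finset (Fin n)).card < (univ : Finset (Fin n)).card := by
    calc ({p, q} : Finset (Fin n)).card ≤ 2 := Finset.card_le_two
      _ < n := by omega
      _ = (univ : Finset (Fin n)).card := by simp
  obtain ⟨r, -, hr⟩ := Finset.exists_mem_notMem_of_card_lt_card h
  simp only [mem_insert, mem_singleton, not_or] at hr
  exact ⟨r, hr⟩

lemma nx_spec (hg : Gen v) (hn : 3 ≤ n) {p q : Fin n} (hpq : p ≠ q) : Cons v p q (nx v p q) := by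
  have h := exists_cons v hg hpq (exists_third hn p q)
  unfold nx
  rw [dif_pos h]
  exact h.choose_spec

/-- positive side of the plane through `p, q` -/
noncomputable def Lp (p q : Fin n) : Finset (Fin n) := univ.filter fun z => 0 < dd v p q z
/-- negative side -/
noncomputable def Ln (p q : Fin n) : Finset (Fin n) := univ.filter fun z => dd v p q z < 0

lemma mem_Lp {p q z : Fin n} : z ∈ Lp v p q ↔ 0 < dd v p q z := by simp [Lp]
lemma mem_Ln {p q z : Fin n} : z ∈ Ln v p q ↔ dd v p q z < 0 := by simp [Ln]

lemma card_Lp_add_Ln (hg : Gen v) {p q : Fin n} (hpq : p ≠ q) :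
    (Lp v p q).card + (Ln v p q).card + 2 = n := by
  classical
  have hd : Disjoint (Lp v p q) (Ln v p q) := by
    rw [Finset.disjoint_left]
    intro z h1 h2
    rw [mem_Lp] at h1; rw [mem_Ln] at h2; linarith
  have hd2 : Disjoint (Lp v p q ∪ Ln v p q) {p, q} := by
    rw [Finset.disjoint_left]
    intro z h1 h2
    simp only [mem_insert, mem_singleton] at h2
    rw [mem_union, mem_Lp, mem_Ln] at h1
    rcases h2 with rfl | rfl
    · rw [dd_self13] at h1; rcases h1 with h | h <;> exact lt_irrefl _ h
    · rw [dd_self23] at h1; rcases h1 with h | h <;> exact lt_irrefl _ h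
  have hu : (Lp v p q ∪ Ln v p q) ∪ {p, q} = univ := by
    ext z
    simp only [mem_union, mem_Lp, mem_Ln, mem_insert, mem_singleton, mem_univ, iff_true]
    by_cases h1 : z = p
    · right; left; exact h1
    by_cases h2 : z = q
    · right; right; exact h2
    left
    rcases lt_or_gt_of_ne (hg p q z hpq (Ne.symm h1) (Ne.symm h2)) with h | h
    · right; exact h
    · left; exact h
  have hc := congrArg Finset.card hu
  rw [card_union_of_disjoint hd2, card_union_of_disjoint hd, card_pair hpq, card_univ,
    Fintype.card_fin] at hc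
  exact hc

lemma Lp_swap (p q : Fin n) : Lp v q p = Ln v p q := by
  ext z; rw [mem_Lp, mem_Ln, dd_swap12 v p q z]; constructor <;> intro h <;> linarith

lemma Ln_swap (p q : Fin n) : Ln v q p = Lp v p q := by
  ext z; rw [mem_Lp, mem_Ln, dd_swap12 v p q z]; constructor <;> intro h <;> linarith

/-- the level sets after a step, negative case -/
lemma Lp_next_neg (hg : Gen v) {p q r : Fin n} (hpq : p ≠ q) (h : Cons v p q r)
    (hd : dd v p q r < 0) : Lp v q r = Lp v p q := by
  ext z
  rw [mem_Lp, mem_Lp]
  by_cases h1 : z = p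
  · subst h1; rw [dd_cyc, dd_self13]; constructor <;> intro h' <;> linarith
  by_cases h2 : z = q
  · subst h2; rw [dd_self13, dd_self23]
  by_cases h3 : z = r
  · subst h3; rw [dd_self23]; constructor <;> intro h' <;> linarith
  have h4 := h.2.2 z h1 h2 h3
  have h5 : 0 < dd v p q z * dd v q r z := by nlinarith
  constructor
  · intro h'; exact (pos_iff_pos_of_mul_pos h5).2 h'
  · intro h'; exact (pos_iff_pos_of_mul_pos h5).1 h'

/-- the level sets after a step, positive case -/
lemma Lp_next_pos (hg : Gen v) {p q r : Fin n} (hpq : p ≠ q) (h : Cons v p q r)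
    (hd : 0 < dd v p q r) : Lp v q r = insert p (Ln v p q) := by
  classical
  ext z
  rw [mem_Lp, mem_insert, mem_Ln]
  by_cases h1 : z = p
  · subst h1; rw [dd_cyc]; simp [hd]
  by_cases h2 : z = q
  · subst h2; rw [dd_self13, dd_self23]; simp [h1]
  by_cases h3 : z = r
  · subst h3; rw [dd_self23]; simp only [lt_irrefl, false_iff, not_or]; exact ⟨h1, by linarith⟩
  have h4 := h.2.2 z h1 h2 h3
  have h5 : dd v p q z * dd v q r z < 0 := by
    by_contra hc
    push Not at hc
    nlinarith [mul_nonneg hc hd.le]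
  simp only [h1, false_or]
  constructor
  · intro h'
    by_contra hc
    push Not at hc
    nlinarith [mul_nonneg hc h'.le]
  · intro h'
    by_contra hc
    push Not at hc
    nlinarith [mul_nonneg_of_nonpos_of_nonpos h'.le hc]

end Vale.Agent.P040.Wind75
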