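import Vale.Agent.P040.Wind75.Parity
import Vale.Agent.P040.Sph72.Parity

/-!
# The labelling lemma
-/

namespace Vale.Agent.P040.Wind75

open Finset Vale.Agent.P040.Sph56

variable {k : ℕ} (v : Fin (2 * k + 1) → V3)

/-- signed halving states -/
abbrev St : Type := {x : Fin (2 * k + 1) × Fin (2 * k + 1) // Om v x} × Bool

noncomputable instance : Fintype (St v) := Fintype.ofFinite _

/-- the step on signed states -/
noncomputable def step (hg : Gen v) (hk : 1 ≤ k) (s : St v) : St v :=
  (⟨tau v s.1.1, tau_Om v hg hk s.1.2⟩, flp v s.1.1 s.2)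

/-- [G1] `tau_inj`, then the two signs agree (cases on the `if` in `flp`) -/
lemma step_inj (hg : Gen v) (hk : 1 ≤ k) : Function.Injective (step v hg hk) := by
  rintro ⟨⟨x, hx⟩, e⟩ ⟨⟨y, hy⟩, f⟩ h
  have h1 : tau v x = tau v y := congrArg (fun s : St v => s.1.1) h
  have h2 : flp v x e = flp v y f := congrArg (fun s : St v => s.2) h
  have hxy : x = y := tau_inj v hg hk hx hy h1
  subst hxy
  have hef : e = f := by
    unfold flp at h2
    split_ifs at h2
    · simpa using h2
    · exact h2
  subst hef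
  rfl

/-- the step as a permutation -/
noncomputable def stepP (hg : Gen v) (hk : 1 ≤ k) : Equiv.Perm (St v) :=
  Equiv.ofBijective (step v hg hk) (Finite.injective_iff_bijective.1 (step_inj v hg hk))

/-- the antipode -/
def anti : Equiv.Perm (St v) where
  toFun s := (s.1, !s.2)
  invFun s := (s.1, !s.2)
  left_inv s := by simp
  right_inv s := by simp

open Classical in
/-- [G2] the cut states are the pairs (flipping state, any sign): bijection with
`{x // Om x ∧ 0 < d} × Bool`, or count the two fibres `e = true`, `e = false` separately. -/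
lemma card_cut (hg : Gen v) (hk : 1 ≤ k) :
    (univ.filter fun s : St v => s.2 ≠ (stepP v hg hk s).2).card
      = 2 * (univ.filter fun x : Fin (2 * k + 1) × Fin (2 * k + 1) =>
        Om v x ∧ 0 < dd v x.1 x.2 (nx v x.1 x.2)).card := by
  have hiff : ∀ s : St v, s.2 ≠ (stepP v hg hk s).2 ↔
      0 < dd v s.1.1.1 s.1.1.2 (nx v s.1.1.1 s.1.1.2) := by
    intro s
    have e : (stepP v hg hk s).2 = flp v s.1.1 s.2 := rfl
    rw [e]
    unfold flp
    split_ifs with h
    · simp only [h, iff_true]
      cases s.2 <;> simp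
    · simp only [h, iff_false, ne_eq, not_true_eq_false, not_false_eq_true]
  have h1 : (univ.filter fun s : St v => s.2 ≠ (stepP v hg hk s).2).card
      = ((univ.filter fun x : Fin (2 * k + 1) × Fin (2 * k + 1) =>
        Om v x ∧ 0 < dd v x.1 x.2 (nx v x.1 x.2)) ×ˢ (univ : Finset Bool)).card := by
    apply Finset.card_bij (fun s _ => (s.1.1, s.2))
    · intro s hs
      rw [mem_filter] at hs
      rw [mem_product, mem_filter]
      exact ⟨⟨mem_univ _, s.1.2, (hiff s).1 hs.2⟩, mem_univ _⟩
    · intro s _ t _ hst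
      have h2 := (Prod.mk.injEq _ _ _ _).mp hst
      exact Prod.ext (Subtype.ext h2.1) h2.2
    · rintro ⟨x, e⟩ hx
      rw [mem_product, mem_filter] at hx
      refine ⟨(⟨x, hx.1.2.1⟩, e), ?_, rfl⟩
      rw [mem_filter]
      exact ⟨mem_univ _, (hiff _).2 hx.1.2.2⟩
  rw [h1, card_product, card_univ, Fintype.card_bool, mul_comm]

/-- [G3] `Sph72.exists_sameCycle_antipode` with `σ = stepP`, `α = anti`, `s = Prod.snd`; `card_cut`,
`odd_total`: `2 * odd` is not divisible by four. -/
lemma exists_antipode (hg : Gen v) (hk : 1 ≤ k) :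
    ∃ s : St v, (stepP v hg hk).SameCycle s (anti v s) := by
  classical
  apply Sph72.exists_sameCycle_antipode (stepP v hg hk) (anti v) ?_ ?_ (fun s => s.2) ?_ ?_
  · intro s
    show ((⟨tau v s.1.1, tau_Om v hg hk s.1.2⟩ : {x : Fin (2 * k + 1) × Fin (2 * k + 1) // Om v x}),
        !(flp v s.1.1 s.2)) =
      ((⟨tau v s.1.1, tau_Om v hg hk s.1.2⟩ : {x : Fin (2 * k + 1) × Fin (2 * k + 1) // Om v x}),
        flp v s.1.1 (!s.2))
    congr 1
    unfold flp
    split_ifs <;> rfl
  · intro s
    show (s.1, !(!s.2)) = s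
    simp
  · intro s
    rfl
  · intro h4
    have h1 := card_cut v hg hk
    obtain ⟨m, hm⟩ := odd_total v hg hk
    have h2 : (univ.filter fun s : St v => s.2 ≠ (stepP v hg hk s).2).card = 2 * (2 * m + 1) := by
      rw [h1, hm]
    obtain ⟨c, hc⟩ := h4
    have h3 : (univ.filter fun s : St v => s.2 ≠ (stepP v hg hk s).2).card = 4 * c := by
      convert hc using 2
    omega

/-- [G4] `SameCycle` gives a natural power (`Equiv.Perm.SameCycle.exists_nat_pow_eq` or
`exists_pow_eq'`), induction on the exponent. -/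
lemma reach_of_sameCycle (hg : Gen v) (hk : 1 ≤ k) {s t : St v}
    (h : (stepP v hg hk).SameCycle s t) :
    Relation.ReflTransGen (fun a b : St v => b = step v hg hk a) s t := by
  obtain ⟨n, hn⟩ := h.exists_nat_pow_eq
  subst hn
  clear h
  induction n with
  | zero => exact Relation.ReflTransGen.refl
  | succ n ih =>
    refine Relation.ReflTransGen.tail ih ?_
    rw [pow_succ', Equiv.Perm.mul_apply]
    rfl

/-- [G5] `Sph99.lab_of_reach` with `Adj a b := b = step a`, `nrm s := nrm v s.1.1 s.2`,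
`piv s := s.1.1.2`; `halv_nrm`, `keep_sign`, `exists_antipode`, `reach_of_sameCycle`, `Sph99.dot_ng`. -/
theorem exists_lab_pos (hg : Gen v) (hk : 1 ≤ k) :
    ∃ (sigma : Fin (2 * k + 1) ≃ Fin (2 * k + 1)) (nn : ℕ → V3),
      Lab k (fun i => if h : i < 2 * k + 1 then v (sigma ⟨i, h⟩) else 0) nn := by
  obtain ⟨s, hs⟩ := exists_antipode v hg hk
  have hr := reach_of_sameCycle v hg hk hs
  refine Sph99.lab_of_reach (S := St v) (fun a b : St v => b = step v hg hk a)
    (fun s => nrm v s.1.1 s.2) (fun s => s.1.1.2) ?_ ?_ s (anti v s) hr rfl ?_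
  · intro t
    exact halv_nrm v hg hk t.1.2 t.2
  · intro a b hab q hq1 hq2
    subst hab
    exact keep_sign v hg hk a.1.2 a.2 hq1 hq2
  · intro q _
    have e : (anti v s) = (s.1, !s.2) := rfl
    rw [e]
    simp only
    unfold nrm
    cases s.2
    · simp only [Bool.not_false, if_true, Bool.false_eq_true, if_false, Sph99.dot_ng]
      constructor <;> intro h <;> linarith
    · simp only [Bool.not_true, if_true, Bool.false_eq_true, if_false, Sph99.dot_ng]
      constructor <;> intro h <;> linarith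

/-- [G6] `k = 0`: `sigma = refl`, `nn = 0`. -/
theorem exists_lab_zero (v : Fin (2 * 0 + 1) → V3) :
    ∃ (sigma : Fin (2 * 0 + 1) ≃ Fin (2 * 0 + 1)) (nn : ℕ → V3),
      Lab 0 (fun i => if h : i < 2 * 0 + 1 then v (sigma ⟨i, h⟩) else 0) nn := by
  refine ⟨Equiv.refl _, fun _ => 0, ?_, ?_, ?_, ?_, ?_⟩
  · intro i _
    simp [dot]
  · intro i hi j hj hij
    omega
  · intro i hi j hj
    omega
  · intro i hi hi' j _ _
    omega
  · intro i _
    simp [dot]

/-- **The labelling lemma.** -/
theorem exists_lab (k : ℕ) (v : Fin (2 * k + 1) → V3)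
    (hg : ∀ a b c, a ≠ b → a ≠ c → b ≠ c → det3 (v a) (v b) (v c) ≠ 0) :
    ∃ (sigma : Fin (2 * k + 1) ≃ Fin (2 * k + 1)) (nn : ℕ → V3),
      Lab k (fun i => if h : i < 2 * k + 1 then v (sigma ⟨i, h⟩) else 0) nn := by
  rcases Nat.eq_zero_or_pos k with rfl | hk
  · exact exists_lab_zero v
  · exact exists_lab_pos v hg hk

end Vale.Agent.P040.Wind75
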