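import Vale.Agent.P040.Wind75.State

/-!
# The number of sign flipping halving states is odd
-/

namespace Vale.Agent.P040.Wind75

open Finset Vale.Agent.P040.Sph56

/-- [P1] for an injective self map `nu` of a finite set the number of `p` with `W (nu p) ≠ W p` is even:
`card {W (nu p)} = card {W p}` (image of `S` under `nu` is `S`), so
`card {W (nu p), not W p} = card {not W (nu p), W p}`. -/
theorem even_changes {α : Type*} [DecidableEq α] (S : Finset α) (nu : α → α)
    (hmap : ∀ p ∈ S, nu p ∈ S) (hinj : ∀ p ∈ S, ∀ p' ∈ S, nu p = nu p' → p = p')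
    (W : α → Prop) [DecidablePred W] : Even (S.filter fun p => ¬ (W (nu p) ↔ W p)).card := by
  have himg : S.image nu = S := by
    apply Finset.eq_of_subset_of_card_le
    · intro x hx
      obtain ⟨p, hp, rfl⟩ := Finset.mem_image.1 hx
      exact hmap p hp
    · rw [Finset.card_image_of_injOn]
      intro a ha b hb hab
      exact hinj a ha b hb hab
  have h1 : (S.filter fun p => W (nu p)).card = (S.filter fun p => W p).card := by
    have : (S.filter fun p => W p) = (S.filter fun p => W (nu p)).image nu := by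
      ext x
      simp only [mem_filter, mem_image]
      constructor
      · rintro ⟨hx, hw⟩
        rw [← himg] at hx
        obtain ⟨p, hp, rfl⟩ := Finset.mem_image.1 hx
        exact ⟨p, ⟨hp, hw⟩, rfl⟩
      · rintro ⟨p, ⟨hp, hw⟩, rfl⟩
        exact ⟨hmap p hp, hw⟩
    rw [this, Finset.card_image_of_injOn]
    intro a ha b hb hab
    exact hinj a (Finset.mem_filter.1 ha).1 b (Finset.mem_filter.1 hb).1 hab
  -- split
  have a1 : (S.filter fun p => W (nu p)).card
      = (S.filter fun p => W (nu p) ∧ W p).card + (S.filter fun p => W (nu p) ∧ ¬ W p).card := by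
    rw [← Finset.card_filter_add_card_filter_not (s := S.filter fun p => W (nu p)) (fun p => W p),
      Finset.filter_filter, Finset.filter_filter]
  have a2 : (S.filter fun p => W p).card
      = (S.filter fun p => W (nu p) ∧ W p).card + (S.filter fun p => ¬ W (nu p) ∧ W p).card := by
    rw [← Finset.card_filter_add_card_filter_not (s := S.filter fun p => W p) (fun p => W (nu p)),
      Finset.filter_filter, Finset.filter_filter]
    congr 2 <;> (ext x; simp only [mem_filter]; tauto)
  have a3 : (S.filter fun p => ¬ (W (nu p) ↔ W p)).card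
      = (S.filter fun p => W (nu p) ∧ ¬ W p).card + (S.filter fun p => ¬ W (nu p) ∧ W p).card := by
    rw [← Finset.card_union_of_disjoint]
    · congr 1
      ext x
      simp only [mem_filter, mem_union]
      tauto
    · rw [Finset.disjoint_left]
      intro x hx hy
      simp only [mem_filter] at hx hy
      tauto
  rw [a3]
  exact ⟨(S.filter fun p => W (nu p) ∧ ¬ W p).card, by omega⟩

variable {k : ℕ} (v : Fin (2 * k + 1) → V3)

/-- [P2] `Lp_swap`, `Ln_swap`, `Lp_next_neg`, `card_Lp_add_Ln` (for `(p,q)` and for `(nx p q, q)`) -/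
lemma card_next_neg (hg : Gen v) (hk : 1 ≤ k) {p q : Fin (2 * k + 1)} (hpq : p ≠ q)
    (hd : dd v p q (nx v p q) < 0) :
    (Lp v (nx v p q) q).card = (Ln v p q).card ∧ (Ln v (nx v p q) q).card = (Lp v p q).card := by
  have hn : 3 ≤ 2 * k + 1 := by omega
  have hc := nx_spec v hg hn hpq
  have hqr : q ≠ nx v p q := hc.2.1.symm
  have e1 := Lp_next_neg v hg hpq hc hd
  have c1 := card_Lp_add_Ln v hg hpq
  have c2 := card_Lp_add_Ln v hg hqr
  rw [Lp_swap v q (nx v p q), Ln_swap v q (nx v p q), e1]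
  rw [e1] at c2
  constructor
  · omega
  · rfl

/-- [P3] `Ln_swap`, `Lp_next_pos`, `card_Lp_add_Ln` -/
lemma card_next_pos (hg : Gen v) (hk : 1 ≤ k) {p q : Fin (2 * k + 1)} (hpq : p ≠ q)
    (hd : 0 < dd v p q (nx v p q)) :
    (Lp v (nx v p q) q).card + 1 = (Lp v p q).card ∧
      (Ln v (nx v p q) q).card = (Ln v p q).card + 1 := by
  have hn : 3 ≤ 2 * k + 1 := by omega
  have hc := nx_spec v hg hn hpq
  have hqr : q ≠ nx v p q := hc.2.1.symm
  have e1 := Lp_next_pos v hg hpq hc hd
  have c1 := card_Lp_add_Ln v hg hpq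
  have c2 := card_Lp_add_Ln v hg hqr
  have hp : p ∉ Ln v p q := by
    rw [mem_Ln, dd_self13]
    exact lt_irrefl _
  rw [Lp_swap v q (nx v p q), Ln_swap v q (nx v p q), e1, card_insert_of_notMem hp]
  rw [e1, card_insert_of_notMem hp] at c2
  constructor
  · omega
  · rfl

/-- [P4] `Cons` with `z = u` and `dd_swap12` -/
lemma sign_next (hg : Gen v) (hk : 1 ≤ k) {p q u : Fin (2 * k + 1)} (hpq : p ≠ q) (hup : u ≠ p)
    (huq : u ≠ q) (hur : u ≠ nx v p q) :
    0 < dd v p q u * dd v (nx v p q) q u * dd v p q (nx v p q) := by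
  have hc := nx_spec v hg (by omega) hpq
  have h1 := hc.2.2 u hup huq hur
  rw [dd_swap12 v q (nx v p q) u]
  nlinarith [h1]

open Classical in
/-- the section: level of the vertex `(p,q)` lifted by the sign of the marker `u` -/
def WW (q u p : Fin (2 * k + 1)) : Prop :=
  if p = u then k ≤ (Lp v p q).card
  else if 0 < dd v p q u then k ≤ (Lp v p q).card else k ≤ (Ln v p q).card

/-- sign flipping halving state with pivot `q` -/
def AA (q p : Fin (2 * k + 1)) : Prop := (Lp v p q).card = k ∧ 0 < dd v p q (nx v p q)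

lemma WW_self26 (q u : Fin (2 * k + 1)) : WW v q u u ↔ k ≤ (Lp v u q).card := by
  unfold WW
  rw [if_pos rfl]

lemma WW_pos26 {q u p : Fin (2 * k + 1)} (hpu : p ≠ u) (h : 0 < dd v p q u) :
    WW v q u p ↔ k ≤ (Lp v p q).card := by
  unfold WW
  rw [if_neg hpu, if_pos h]

lemma WW_neg26 {q u p : Fin (2 * k + 1)} (hpu : p ≠ u) (h : ¬ 0 < dd v p q u) :
    WW v q u p ↔ k ≤ (Ln v p q).card := by
  unfold WW
  rw [if_neg hpu, if_neg h]

/-- [P5] `p ≠ u`.  Put `r = nx p q`, `a = card Lp p q`, `b = card Ln p q`, `a + b = 2k-1`.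
Case `d p q r < 0` (then `AA` is false): `card_next_neg`; if `r ≠ u` the sign of `d r q u` is opposite to the
sign of `d p q u` (`sign_next`), if `r = u` then `d p q u < 0`: in all cases `WW r ↔ WW p`.
Case `0 < d p q r`: `card_next_pos`; if `r ≠ u` same sign (`sign_next`), if `r = u` then `0 < d p q u`;
`WW p` is `k ≤ a` and `WW r` is `k ≤ a - 1`, or `WW p` is `k ≤ b`, `WW r` is `k ≤ b + 1`: they differ iff `a = k`. -/
lemma WW_step (hg : Gen v) (hk : 1 ≤ k) {p q u : Fin (2 * k + 1)} (hpq : p ≠ q) (huq : u ≠ q)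
    (hpu : p ≠ u) : ¬ (WW v q u (nx v p q) ↔ WW v q u p) ↔ AA v q p := by
  have hC := nx_spec v hg (by omega) hpq
  have hab := card_Lp_add_Ln v hg hpq
  obtain ⟨r, hr⟩ : ∃ r, r = nx v p q := ⟨_, rfl⟩
  rw [← hr] at hC
  have hrp : r ≠ p := hC.1
  have hrq : r ≠ q := hC.2.1
  have hd0 : dd v p q r ≠ 0 := hg p q r hpq hrp.symm hrq.symm
  have hu0 : dd v p q u ≠ 0 := hg p q u hpq hpu huq.symm
  unfold AA
  rw [← hr]
  rcases lt_or_gt_of_ne hd0 with hd | hd
  · have hc := card_next_neg v hg hk hpq (by rw [← hr]; exact hd)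
    rw [← hr] at hc
    have hAA : ¬ ((Lp v p q).card = k ∧ 0 < dd v p q r) := fun h => absurd h.2 (not_lt.2 hd.le)
    refine iff_of_false ?_ hAA
    rw [not_not]
    by_cases hru : r = u
    · rw [hru, WW_self26, WW_neg26 v hpu (by rw [← hru]; exact not_lt.2 hd.le), ← hru, hc.1]
    · have hs := sign_next v hg hk hpq (Ne.symm hpu) huq (by rw [← hr]; exact Ne.symm hru)
      rw [← hr] at hs
      rcases lt_or_gt_of_ne hu0 with h1 | h1
      · have h2 : 0 < dd v r q u := by
          by_contra h2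
          have h3 : 0 ≤ dd v p q u * dd v r q u := mul_nonneg_of_nonpos_of_nonpos h1.le (not_lt.1 h2)
          nlinarith [mul_nonpos_of_nonneg_of_nonpos h3 hd.le]
        rw [WW_pos26 v hru h2, WW_neg26 v hpu (not_lt.2 h1.le), hc.1]
      · have h2 : ¬ 0 < dd v r q u := by
          intro h2
          have h3 : 0 < dd v p q u * dd v r q u := mul_pos h1 h2
          nlinarith [mul_neg_of_pos_of_neg h3 hd]
        rw [WW_neg26 v hru h2, WW_pos26 v hpu h1, hc.2]
  · have hc := card_next_pos v hg hk hpq (by rw [← hr]; exact hd)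
    rw [← hr] at hc
    have hAA : ((Lp v p q).card = k ∧ 0 < dd v p q r) ↔ (Lp v p q).card = k :=
      ⟨fun h => h.1, fun h => ⟨h, hd⟩⟩
    rw [hAA]
    by_cases hru : r = u
    · rw [hru, WW_self26, WW_pos26 v hpu (by rw [← hru]; exact hd), ← hru]
      omega
    · have hs := sign_next v hg hk hpq (Ne.symm hpu) huq (by rw [← hr]; exact Ne.symm hru)
      rw [← hr] at hs
      rcases lt_or_gt_of_ne hu0 with h1 | h1
      · have h2 : ¬ 0 < dd v r q u := by
          intro h2
          have h3 : dd v p q u * dd v r q u < 0 := mul_neg_of_neg_of_pos h1 h2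
          nlinarith [mul_neg_of_neg_of_pos h3 hd]
        rw [WW_neg26 v hru h2, WW_neg26 v hpu (not_lt.2 h1.le)]
        omega
      · have h2 : 0 < dd v r q u := by
          by_contra h2
          have h3 : dd v p q u * dd v r q u ≤ 0 := mul_nonpos_of_nonneg_of_nonpos h1.le (not_lt.1 h2)
          nlinarith [mul_nonpos_of_nonpos_of_nonneg h3 hd.le]
        rw [WW_pos26 v hru h2, WW_pos26 v hpu h1]
        omega

/-- [P6] `p = u`, `r = nx u q ≠ u`, `d r q u = - d u q r` (`dd_swap13`).
Case `d u q r < 0`: `WW r` is `k ≤ card Lp r q = b = 2k-1-a`, `WW u` is `k ≤ a`: always different.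
Case `0 < d u q r`: `WW r` is `k ≤ card Ln r q = b+1 = 2k-a`: different iff `a ≠ k`. -/
lemma WW_step_u (hg : Gen v) (hk : 1 ≤ k) {q u : Fin (2 * k + 1)} (huq : u ≠ q) :
    ¬ (WW v q u (nx v u q) ↔ WW v q u u) ↔ ¬ AA v q u := by
  have hC := nx_spec v hg (by omega) huq
  have hab := card_Lp_add_Ln v hg huq
  obtain ⟨r, hr⟩ : ∃ r, r = nx v u q := ⟨_, rfl⟩
  rw [← hr] at hC
  have hru : r ≠ u := hC.1
  have hrq : r ≠ q := hC.2.1
  have hd0 : dd v u q r ≠ 0 := hg u q r huq hru.symm hrq.symm
  have hsw : dd v r q u = - dd v u q r := dd_swap13 v u q r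
  unfold AA
  rw [← hr, WW_self26]
  rcases lt_or_gt_of_ne hd0 with hd | hd
  · have hc := card_next_neg v hg hk huq (by rw [← hr]; exact hd)
    rw [← hr] at hc
    have hAA : ¬ ((Lp v u q).card = k ∧ 0 < dd v u q r) := fun h => absurd h.2 (not_lt.2 hd.le)
    refine iff_of_true ?_ hAA
    rw [WW_pos26 v hru (by rw [hsw]; linarith), hc.1]
    omega
  · have hc := card_next_pos v hg hk huq (by rw [← hr]; exact hd)
    rw [← hr] at hc
    have hAA : ((Lp v u q).card = k ∧ 0 < dd v u q r) ↔ (Lp v u q).card = k :=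
      ⟨fun h => h.1, fun h => ⟨h, hd⟩⟩
    rw [hAA, WW_neg26 v hru (by rw [hsw]; linarith), hc.2]
    omega

open Classical in
/-- [P7] `even_changes` on `S = univ.erase q`, `nu p = nx p q` (maps `S` to `S` by `Cons`, injective by
`cons_unique_left`), `W = WW q u` for some `u ≠ q`; by `WW_step`, `WW_step_u` the filter is
`{AA} \ {u}` if `AA u`, `insert u {AA}` otherwise. -/
lemma odd_aq (hg : Gen v) (hk : 1 ≤ k) (q : Fin (2 * k + 1)) :
    Odd (univ.filter fun p => p ≠ q ∧ AA v q p).card := by
  obtain ⟨u, -, huq⟩ := exists_third (n := 2 * k + 1) (by omega) q q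
  have hev := even_changes (univ.erase q) (fun p => nx v p q)
    (fun p hp => by
      have hpq : p ≠ q := (mem_erase.1 hp).1
      exact mem_erase.2 ⟨(nx_spec v hg (by omega) hpq).2.1, mem_univ _⟩)
    (fun p hp p' hp' h => by
      have hpq : p ≠ q := (mem_erase.1 hp).1
      have hpq' : p' ≠ q := (mem_erase.1 hp').1
      have h1 := nx_spec v hg (by omega) hpq
      have h2 := nx_spec v hg (by omega) hpq'
      have h' : nx v p q = nx v p' q := h
      rw [← h'] at h2
      exact cons_unique_left v hpq hpq' h1 h2)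
    (WW v q u)
  by_cases hA : AA v q u
  · have e : ((univ.erase q).filter fun p => ¬ (WW v q u (nx v p q) ↔ WW v q u p)) =
        (univ.filter fun p => p ≠ q ∧ AA v q p).erase u := by
      ext p
      simp only [mem_filter, mem_erase, mem_univ, and_true, true_and]
      by_cases hpu : p = u
      · subst hpu
        constructor
        · rintro ⟨_, h⟩
          exact absurd hA ((WW_step_u v hg hk huq).1 h)
        · rintro ⟨h, _⟩
          exact absurd rfl h
      · constructor
        · rintro ⟨hpq, h⟩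
          exact ⟨hpu, hpq, (WW_step v hg hk hpq huq hpu).1 h⟩
        · rintro ⟨_, hpq, h⟩
          exact ⟨hpq, (WW_step v hg hk hpq huq hpu).2 h⟩
    rw [e, card_erase_of_mem (by simp [huq, hA])] at hev
    have hpos : 0 < (univ.filter fun p => p ≠ q ∧ AA v q p).card :=
      card_pos.2 ⟨u, by simp [huq, hA]⟩
    obtain ⟨c, hc⟩ := hev
    exact ⟨c, by omega⟩
  · have e : ((univ.erase q).filter fun p => ¬ (WW v q u (nx v p q) ↔ WW v q u p)) =
        insert u (univ.filter fun p => p ≠ q ∧ AA v q p) := by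
      ext p
      simp only [mem_filter, mem_erase, mem_univ, and_true, true_and, mem_insert]
      by_cases hpu : p = u
      · subst hpu
        constructor
        · intro _
          exact Or.inl rfl
        · intro _
          exact ⟨huq, (WW_step_u v hg hk huq).2 hA⟩
      · constructor
        · rintro ⟨hpq, h⟩
          exact Or.inr ⟨hpq, (WW_step v hg hk hpq huq hpu).1 h⟩
        · rintro (h | ⟨hpq, h⟩)
          · exact absurd h hpu
          · exact ⟨hpq, (WW_step v hg hk hpq huq hpu).2 h⟩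
    rw [e, card_insert_of_notMem (by simp [hA])] at hev
    obtain ⟨c, hc⟩ := hev
    exact ⟨c - 1, by omega⟩

open Classical in
/-- [P8] fibre the set over `x.2` (`Finset.card_eq_sum_card_fiberwise`), each fibre has the cardinality of
`odd_aq`; a sum of `2k+1` odd numbers is odd (`Finset.odd_sum_iff_odd_card_odd`). -/
theorem odd_total (hg : Gen v) (hk : 1 ≤ k) :
    Odd (univ.filter fun x : Fin (2 * k + 1) × Fin (2 * k + 1) =>
      Om v x ∧ 0 < dd v x.1 x.2 (nx v x.1 x.2)).card := by
  have h1 := Finset.card_eq_sum_card_fiberwise (f := Prod.snd)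
    (s := univ.filter fun x : Fin (2 * k + 1) × Fin (2 * k + 1) =>
      Om v x ∧ 0 < dd v x.1 x.2 (nx v x.1 x.2)) (t := univ) (fun x _ => Finset.mem_coe.mpr (Finset.mem_univ _))
  have h2 : ∀ q : Fin (2 * k + 1), ((univ.filter fun x : Fin (2 * k + 1) × Fin (2 * k + 1) =>
      Om v x ∧ 0 < dd v x.1 x.2 (nx v x.1 x.2)).filter fun x => x.2 = q).card =
      (univ.filter fun p => p ≠ q ∧ AA v q p).card := by
    intro q
    symm
    apply Finset.card_bij (fun p _ => (p, q))
    · intro p hp
      simp only [mem_filter, mem_univ, true_and] at hp ⊢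
      exact ⟨⟨⟨hp.1, hp.2.1⟩, hp.2.2⟩, trivial⟩
    · intro a _ b _ h
      exact (Prod.mk.inj h).1
    · rintro ⟨p, q'⟩ hx
      simp only [mem_filter, mem_univ, true_and] at hx
      obtain ⟨⟨⟨a1, a2⟩, a3⟩, rfl⟩ := hx
      refine ⟨p, ?_, rfl⟩
      simp only [mem_filter, mem_univ, true_and]
      exact ⟨a1, a2, a3⟩
  rw [h1, Finset.odd_sum_iff_odd_card_odd]
  have h3 : (univ.filter fun q : Fin (2 * k + 1) =>
      Odd ((univ.filter fun x : Fin (2 * k + 1) × Fin (2 * k + 1) =>
      Om v x ∧ 0 < dd v x.1 x.2 (nx v x.1 x.2)).filter fun x => x.2 = q).card) = univ := by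
    apply Finset.filter_true_of_mem
    intro q _
    rw [h2]
    exact odd_aq v hg hk q
  rw [h3, Finset.card_univ, Fintype.card_fin]
  exact ⟨k, rfl⟩

end Vale.Agent.P040.Wind75
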