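import Vale.Agent.P040.Wind75.Basic
import Vale.Agent.P040.Sph99.Labels

/-!
# Halving states, explicit normals, the windmill step

State = ordered pair `x = (p, q)` with exactly `k` vectors on the positive side of the plane through
`p, q`; pivot `q`; next state `(q, nx p q)`.
-/

namespace Vale.Agent.P040.Wind75

open Finset Vale.Agent.P040.Sph56

/-- the combination `a x - b y` -/
def lin (a b : ℝ) (x y : V3) : V3 :=
  (a * x.1 - b * y.1, a * x.2.1 - b * y.2.1, a * x.2.2 - b * y.2.2)

/-- [S1] unfold dot lin; ring -/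
lemma dot_lin (a b : ℝ) (x y z : V3) : dot (lin a b x y) z = a * dot x z - b * dot y z := by
  unfold dot lin; ring

variable {n : ℕ} (v : Fin n → V3)

/-- explicit normal of the arc that follows the vertex `(p, q)` -/
noncomputable def mm (p q : Fin n) : V3 :=
  lin |dd v p q (nx v p q)| (dd v p q (nx v p q)) (crs (v p) (v q)) (crs (v q) (v (nx v p q)))

/-- [S2] unfold mm; rw dot_lin, det3_eq_dot_crs twice; rfl -/
lemma dot_mm (p q z : Fin n) : dot (mm v p q) (v z)
    = |dd v p q (nx v p q)| * dd v p q z - dd v p q (nx v p q) * dd v q (nx v p q) z := by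
  unfold mm
  rw [dot_lin, det3_eq_dot_crs, det3_eq_dot_crs]
  rfl

/-- [S3] dot_mm, dd_self23, dd_self13 -/
lemma mm_pivot (p q : Fin n) : dot (mm v p q) (v q) = 0 := by
  rw [dot_mm, dd_self23, dd_self13]; ring

/-- [S4] dot_mm, dd_self13, dd_cyc: the value is `- d * d` with `d = dd p q (nx p q) ≠ 0` -/
lemma mm_old (hg : Gen v) (hn : 3 ≤ n) {p q : Fin n} (hpq : p ≠ q) : dot (mm v p q) (v p) < 0 := by
  have hc := nx_spec v hg hn hpq
  have hd : dd v p q (nx v p q) ≠ 0 := hg p q _ hpq hc.1.symm hc.2.1.symm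
  rw [dot_mm, dd_self13, dd_cyc v p q (nx v p q)]
  have := mul_self_pos.2 hd
  linarith

/-- [S5] for `z = nx p q`: value `|d| * d`; otherwise `Cons` gives `dz * e * d < 0` and
`(|d| dz - d e) dz = |d| dz^2 - d e dz > 0`. -/
lemma mm_sign (hg : Gen v) (hn : 3 ≤ n) {p q z : Fin n} (hpq : p ≠ q) (hzp : z ≠ p) (hzq : z ≠ q) :
    0 < dot (mm v p q) (v z) * dd v p q z := by
  have hc := nx_spec v hg hn hpq
  have hd : dd v p q (nx v p q) ≠ 0 := hg p q _ hpq hc.1.symm hc.2.1.symm
  have hz : dd v p q z ≠ 0 := hg p q z hpq hzp.symm hzq.symm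
  have habs : 0 < |dd v p q (nx v p q)| := abs_pos.2 hd
  have hzz := mul_self_pos.2 hz
  rw [dot_mm]
  by_cases h3 : z = nx v p q
  · rw [h3, dd_self23]
    have := mul_pos habs (mul_self_pos.2 hd)
    nlinarith
  · have h4 := hc.2.2 z hzp hzq h3
    have := mul_pos habs hzz
    nlinarith

/-- [S6] -/
lemma pos_mm (hg : Gen v) (hn : 3 ≤ n) {p q : Fin n} (hpq : p ≠ q) :
    (univ.filter fun z => 0 < dot (mm v p q) (v z)) = Lp v p q := by
  ext z
  rw [mem_filter, mem_Lp]
  simp only [mem_univ, true_and]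
  by_cases h1 : z = p
  · subst h1
    have := mm_old v hg hn hpq
    rw [dd_self13]
    constructor <;> intro h <;> linarith
  by_cases h2 : z = q
  · subst h2
    rw [mm_pivot, dd_self23]
  exact pos_iff_pos_of_mul_pos (mm_sign v hg hn hpq h1 h2)

/-- [S7] -/
lemma neg_mm (hg : Gen v) (hn : 3 ≤ n) {p q : Fin n} (hpq : p ≠ q) :
    (univ.filter fun z => dot (mm v p q) (v z) < 0) = insert p (Ln v p q) := by
  ext z
  rw [mem_filter, mem_insert, mem_Ln]
  simp only [mem_univ, true_and]
  by_cases h1 : z = p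
  · subst h1
    simp [mm_old v hg hn hpq]
  by_cases h2 : z = q
  · subst h2
    rw [mm_pivot, dd_self23]
    simp [h1]
  simp only [h1, false_or]
  exact neg_iff_neg_of_mul_pos (mm_sign v hg hn hpq h1 h2)

end Vale.Agent.P040.Wind75

namespace Vale.Agent.P040.Wind75

open Finset Vale.Agent.P040.Sph56

variable {k : ℕ} (v : Fin (2 * k + 1) → V3)

/-- halving states -/
def Om (x : Fin (2 * k + 1) × Fin (2 * k + 1)) : Prop := x.1 ≠ x.2 ∧ (Lp v x.1 x.2).card = k

/-- the windmill step -/
noncomputable def tau (x : Fin (2 * k + 1) × Fin (2 * k + 1)) : Fin (2 * k + 1) × Fin (2 * k + 1) :=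
  (x.2, nx v x.1 x.2)

/-- [S8] `Lp_next_neg`, `Lp_next_pos` (card of insert: `p ∉ Ln p q` by `dd_self13`), `card_Lp_add_Ln` -/
lemma tau_Om (hg : Gen v) (hk : 1 ≤ k) {x : Fin (2 * k + 1) × Fin (2 * k + 1)} (hx : Om v x) :
    Om v (tau v x) := by
  classical
  obtain ⟨hpq, hc⟩ := hx
  have hn : 3 ≤ 2 * k + 1 := by omega
  have hs := nx_spec v hg hn hpq
  refine ⟨hs.2.1.symm, ?_⟩
  have hd : dd v x.1 x.2 (nx v x.1 x.2) ≠ 0 := hg _ _ _ hpq hs.1.symm hs.2.1.symm
  show (Lp v x.2 (nx v x.1 x.2)).card = k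
  rcases lt_or_gt_of_ne hd with h | h
  · rw [Lp_next_neg v hg hpq hs h]; exact hc
  · rw [Lp_next_pos v hg hpq hs h, card_insert_of_notMem]
    · have := card_Lp_add_Ln v hg hpq
      omega
    · rw [mem_Ln, dd_self13]; exact lt_irrefl _

/-- [S9] `cons_unique_left` -/
lemma tau_inj (hg : Gen v) (hk : 1 ≤ k) {x y : Fin (2 * k + 1) × Fin (2 * k + 1)} (hx : Om v x)
    (hy : Om v y) (h : tau v x = tau v y) : x = y := by
  have hn : 3 ≤ 2 * k + 1 := by omega
  have h1 : x.2 = y.2 := congrArg Prod.fst h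
  have h2 : nx v x.1 x.2 = nx v y.1 y.2 := congrArg Prod.snd h
  have hsx := nx_spec v hg hn hx.1
  have hsy := nx_spec v hg hn hy.1
  rw [← h2, ← h1] at hsy
  have h3 : x.1 = y.1 := cons_unique_left v hx.1 (h1 ▸ hy.1) hsx hsy
  exact Prod.ext h3 h1

/-- normal of a signed state -/
noncomputable def nrm (x : Fin (2 * k + 1) × Fin (2 * k + 1)) (e : Bool) : V3 :=
  if e then mm v x.1 x.2 else ng (mm v x.1 x.2)

/-- the sign after the step -/
noncomputable def flp (x : Fin (2 * k + 1) × Fin (2 * k + 1)) (e : Bool) : Bool :=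
  if 0 < dd v x.1 x.2 (nx v x.1 x.2) then !e else e

/-- [S10] `e = true`: `mm_pivot`, `mm_old`/`mm_sign`, `pos_mm`.  `e = false`: `Sph99.dot_ng`, `neg_mm`,
card of the insert `= (2k+1-2-k)+1 = k` by `card_Lp_add_Ln`. -/
lemma halv_nrm (hg : Gen v) (hk : 1 ≤ k) {x : Fin (2 * k + 1) × Fin (2 * k + 1)} (hx : Om v x)
    (e : Bool) : Sph99.Halv k v (nrm v x e) x.2 := by
  have hn : 3 ≤ 2 * k + 1 := by omega
  have h0 : Sph99.Halv k v (mm v x.1 x.2) x.2 := by
    refine ⟨mm_pivot v _ _, ?_, ?_⟩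
    · intro q hq
      by_cases h1 : q = x.1
      · rw [h1]; exact (mm_old v hg hn hx.1).ne
      · have := mm_sign v hg hn hx.1 h1 hq
        intro h0
        rw [h0, zero_mul] at this
        exact lt_irrefl _ this
    · rw [pos_mm v hg hn hx.1]; exact hx.2
  cases e
  · simpa [nrm] using h0.neg
  · simpa [nrm] using h0

/-- [S11a] sign bookkeeping -/
lemma sign_chain {U W S d : ℝ} (h1 : 0 < U * W) (h2 : W * d < 0) (h3 : S * d < 0) : 0 < S * U := by
  rcases mul_pos_iff.1 h1 with ⟨a, b⟩ | ⟨a, b⟩ <;> rcases mul_neg_iff.1 h2 with ⟨c, d'⟩ | ⟨c, d'⟩ <;>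
    rcases mul_neg_iff.1 h3 with ⟨f, g⟩ | ⟨f, g⟩ <;>
    first
      | (exfalso; linarith)
      | exact mul_pos f a
      | exact mul_pos_of_neg_of_neg f a

/-- [S11b] unsigned form of the windmill property.  With `p = x.1, q = x.2, r = nx p q`, `d = dd p q r`:
for `z ∉ {p,q,r}`: `mm_sign` for `(p,q)` and for `(q,r)`, `Cons`: `dz * e * d < 0`, then `sign_chain`;
for `z = p`: `mm_old`, and `mm_sign` for `(q,r)` with `dd q r p = d`. -/
lemma keep_mm (hg : Gen v) (hk : 1 ≤ k) {p q z : Fin (2 * k + 1)} (hpq : p ≠ q) (h1 : z ≠ q)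
    (h2 : z ≠ nx v p q) :
    dot (mm v p q) (v z) * dot (mm v q (nx v p q)) (v z) * dd v p q (nx v p q) < 0 := by
  have hn : 3 ≤ 2 * k + 1 := by omega
  have hc := nx_spec v hg hn hpq
  have hqr : q ≠ nx v p q := hc.2.1.symm
  by_cases hzp : z = p
  · subst hzp
    have a1 := mm_old v hg hn hpq
    have a2 := mm_sign v hg hn hqr h1 h2
    rw [dd_cyc v z q (nx v z q)] at a2
    have a3 := mul_neg_of_neg_of_pos a1 a2
    linarith
  · have a1 := mm_sign v hg hn hpq hzp h1
    have a2 := mm_sign v hg hn hqr h1 h2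
    have a3 := hc.2.2 z hzp h1 h2
    have a4 := mul_neg_of_pos_of_neg (mul_pos a1 a2) a3
    by_contra hcon
    rw [not_lt] at hcon
    have a5 := mul_nonneg hcon (mul_self_nonneg (dd v p q z * dd v q (nx v p q) z))
    nlinarith

/-- [S11] the windmill property: off the two pivots no sign changes.  Cases on `e` and on the sign of
`dd p q (nx p q)`; `keep_mm`, `Sph99.dot_ng`. -/
lemma keep_sign (hg : Gen v) (hk : 1 ≤ k) {x : Fin (2 * k + 1) × Fin (2 * k + 1)} (hx : Om v x)
    (e : Bool) {z : Fin (2 * k + 1)} (h1 : z ≠ x.2) (h2 : z ≠ nx v x.1 x.2) :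
    (0 < dot (nrm v x e) (v z) ↔ 0 < dot (nrm v (tau v x) (flp v x e)) (v z)) := by
  have hn : 3 ≤ 2 * k + 1 := by omega
  have hs := nx_spec v hg hn hx.1
  have hd : dd v x.1 x.2 (nx v x.1 x.2) ≠ 0 := hg _ _ _ hx.1 hs.1.symm hs.2.1.symm
  have hk' := keep_mm v hg hk hx.1 h1 h2
  set a := dot (mm v x.1 x.2) (v z) with ha
  set b := dot (mm v x.2 (nx v x.1 x.2)) (v z) with hb
  set d := dd v x.1 x.2 (nx v x.1 x.2) with hdd
  rcases lt_or_gt_of_ne hd with h | h
  · have hab : 0 < a * b := by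
      by_contra hc
      push Not at hc
      nlinarith [mul_nonneg_of_nonpos_of_nonpos hc h.le]
    have hf : flp v x e = e := by
      unfold flp
      rw [if_neg (by rw [← hdd]; linarith)]
    rw [hf]
    cases e
    · simp only [nrm, tau, Bool.false_eq_true, if_false]
      rw [Sph99.dot_ng, Sph99.dot_ng, ← ha, ← hb]
      have := neg_iff_neg_of_mul_pos hab
      constructor
      · intro h'; have := this.1 (by linarith); linarith
      · intro h'; have := this.2 (by linarith); linarith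
    · simp only [nrm, tau, if_true]
      rw [← ha, ← hb]
      exact pos_iff_pos_of_mul_pos hab
  · have hab : a * b < 0 := by
      by_contra hc
      push Not at hc
      nlinarith [mul_nonneg hc h.le]
    have hf : flp v x e = !e := by
      unfold flp
      rw [if_pos (by rw [← hdd]; exact h)]
    rw [hf]
    have key : 0 < a ↔ b < 0 := by
      constructor
      · intro h'
        by_contra hc
        push Not at hc
        nlinarith [mul_nonneg h'.le hc]
      · intro h'
        by_contra hc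
        push Not at hc
        nlinarith [mul_nonneg_of_nonpos_of_nonpos hc h'.le]
    have key2 : a < 0 ↔ 0 < b := by
      constructor
      · intro h'
        by_contra hc
        push Not at hc
        nlinarith [mul_nonneg_of_nonpos_of_nonpos h'.le hc]
      · intro h'
        by_contra hc
        push Not at hc
        nlinarith [mul_nonneg hc h'.le]
    cases e
    · simp only [nrm, tau, Bool.false_eq_true, if_false, Bool.not_false, if_true]
      rw [Sph99.dot_ng, ← ha, ← hb]
      constructor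
      · intro h'; exact key2.1 (by linarith)
      · intro h'; have := key2.2 h'; linarith
    · simp only [nrm, tau, if_true, Bool.not_true, Bool.false_eq_true, if_false]
      rw [Sph99.dot_ng, ← ha, ← hb]
      constructor
      · intro h'; have := key.1 h'; linarith
      · intro h'; exact key.2 (by linarith)

end Vale.Agent.P040.Wind75
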